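import Vale.Agent.P123.Main

/-! Crouzeix's conjecture: the optimal constant for the numerical range is `2`. -/

namespace Vale.Agent.Results.P123.Crouzeix

open scoped InnerProductSpace

universe u

/-- The least constant `C` with `‖P(A)‖ ≤ C sup_{W(A)} |P|` for all nonzero complex Hilbert spaces,
bounded operators and polynomials is `2`. -/
theorem result :
    IsLeast {C : ℝ | ∀ (H : Type u) [NormedAddCommGroup H] [InnerProductSpace ℂ H] [CompleteSpace H]
      [Nontrivial H] (A : H →L[ℂ] H) (P : Polynomial ℂ) (M : ℝ),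
        (∀ x : H, ‖x‖ = 1 → ‖P.eval ⟪x, A x⟫_ℂ‖ ≤ M) → ‖Polynomial.aeval A P‖ ≤ C * M} 2 := by
  refine ⟨fun H _ _ _ _ A P M hM => Vale.Agent.P123.crouzeix A P hM, fun C hC => ?_⟩
  have : Nontrivial (EuclideanSpace ℂ (ULift.{u} (Fin 2))) :=
    ⟨⟨EuclideanSpace.single ⟨0⟩ 1, 0, fun h => by simpa using congrArg norm h⟩⟩
  refine Vale.Agent.P123.two_le_of_bound
    (e₀ := EuclideanSpace.single (⟨0⟩ : ULift.{u} (Fin 2)) (1 : ℂ))
    (e₁ := EuclideanSpace.single (⟨1⟩ : ULift.{u} (Fin 2)) (1 : ℂ)) (by simp) (by simp)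
    (by simp [EuclideanSpace.inner_single_left]) (fun A P M hM => hC _ A P M hM)

end Vale.Agent.Results.P123.Crouzeix
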